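import Mathlib
import Vale.Agent.Lib.P038.Gap
import Vale.Agent.Lib.P038.Forest
import Vale.Agent.Lib.P038.SatK.All

/-!
Four results on Seymour's second neighbourhood problem in one statement: the defect inequality for
every oriented graph, and the full property for every tournament missing a forest, for every
oriented graph with a vertex of out-degree at most seven, and for every oriented graph in which no
two missing edges `u v`, `t s` have arcs `t → u` and `s → v` (for instance every tournament missing
a threshold graph).
-/

namespace Vale.Agent.Results.P038.AAllCases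

open Vale.Agent.Lib.P038

variable {V : Type*} [Fintype V]

/-- If no two missing edges `u v`, `t s` have arcs `t → u` and `s → v`, then no missing edge is
double-blocked, so the excess set of every vertex is empty. -/
lemma excess_eq_empty (r : V → V → Prop)
    (hc : ∀ u v t s, Miss r u v → Miss r t s → r t u → r s v → False) (f : V) :
    excess r f = ∅ := by
  classical
  rw [Finset.eq_empty_iff_forall_notMem]
  intro x hx
  simp only [excess, Finset.mem_filter, Finset.mem_univ, true_and] at hx
  obtain ⟨-, hcard⟩ := hx
  have hpos : 0 < ((out r f).filter fun u => DoubleBlocked r u x).card := by omega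
  obtain ⟨u, hu⟩ := Finset.card_pos.mp hpos
  obtain ⟨-, hdb⟩ := Finset.mem_filter.mp hu
  obtain ⟨hne, h1, h2, ⟨t, htu, htx⟩, ⟨s, hsx, hsu⟩⟩ := hdb
  have hts : t ≠ s := by
    intro e
    rw [← e] at hsx
    exact htx (Or.inr (Or.inl hsx))
  have h3 : ¬ r t s := fun h => htx (Or.inr (Or.inr ⟨s, h, hsx⟩))
  have h4 : ¬ r s t := fun h => hsu (Or.inr (Or.inr ⟨t, h, htu⟩))
  exact hc u x t s ⟨hne, h1, h2⟩ ⟨hts, h3, h4⟩ htu hsx

/-- Every nonempty finite oriented graph has a vertex satisfying the defect inequality; and it has
a vertex whose second out-neighbourhood is at least as large as its first one, whenever its graph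
of missing edges is acyclic, or some out-degree is at most seven, or no two missing edges `u v`,
`t s` have arcs `t → u` and `s → v`. -/
theorem result [Nonempty V] (r : V → V → Prop) (hr : ∀ u v, r u v → ¬ r v u) :
    (∃ f : V, (out r f).card ≤ (second r f).card + (excess r f).card) ∧
    ((missingGraph r).IsAcyclic → ∃ f : V, (out r f).card ≤ (second r f).card) ∧
    ((∃ v : V, (out r v).card ≤ 7) → ∃ f : V, (out r f).card ≤ (second r f).card) ∧
    ((∀ u v t s, Miss r u v → Miss r t s → r t u → r s v → False) →
      ∃ f : V, (out r f).card ≤ (second r f).card) := by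
  refine ⟨defect_inequality r hr, exists_seymour_forest r hr, ?_, ?_⟩
  · rintro ⟨v, hv⟩
    by_contra hc
    push Not at hc
    exact Vale.Agent.Lib.P038.SatK.atMostSeven hr hc hv
  · intro hc
    obtain ⟨f, hf⟩ := defect_inequality r hr
    refine ⟨f, ?_⟩
    rw [excess_eq_empty r hc f] at hf
    simpa using hf

end Vale.Agent.Results.P038.AAllCases
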